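import Vale.Agent.P216.H347.TauDefs
import Vale.Agent.P216.MV337.Pg

/-!
# P216, Theorem B, block [TAU] : polygonal approximation (`StPoly`)
-/

set_option linter.all false

open Set Filter Topology BoundedContinuousFunction

namespace Vale.Agent.P216.Tau

open Vale.Agent.P216.MV337 (pg cs pg_of_nonpos pg_of_ge dist_pg_le continuousOn_pg cs_const)

theorem isCompact_cube (n : ℕ) : IsCompact (cube n) := by
  have : cube n = Set.pi univ fun _ => Icc (0 : ℝ) 1 := by
    ext v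
    exact ⟨fun h i _ => h i, fun h i => h i (mem_univ i)⟩
  rw [this]
  exact isCompact_univ_pi fun _ => isCompact_Icc

theorem smul_mem_cube {n : ℕ} {θ : Fin n → ℝ} (h : θ ∈ cube n) {r : ℝ} (hr : r ∈ Icc (0 : ℝ) 1) :
    r • θ ∈ cube n := fun i =>
  ⟨mul_nonneg hr.1 (h i).1, mul_le_one₀ hr.2 (h i).1 (h i).2⟩

/-- polygonal approximation of the rays of a map of the cube -/
theorem stPoly : StPoly := by
  intro M _ _ ρ hρ hU n B x₁ hB hn hbd
  -- uniform continuity of `(θ, r) ↦ B (r • θ)`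
  have hG : Continuous fun p : (Fin n → ℝ) × ℝ => B (p.2 • p.1) :=
    hB.comp (continuous_snd.smul continuous_fst)
  have hK : IsCompact (cube n ×ˢ Icc (0 : ℝ) 1) := (isCompact_cube n).prod isCompact_Icc
  have huc := hK.uniformContinuousOn_of_continuous hG.continuousOn
  obtain ⟨δ, hδ, hd⟩ := Metric.uniformContinuousOn_iff.1 huc (ρ / 2) (by positivity)
  obtain ⟨K', hK'⟩ := exists_nat_one_div_lt hδ
  set K : ℕ := K' + 1 with hKdef
  have hK0 : (0 : ℝ) < K := by rw [hKdef]; positivity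
  have hK1 : 1 / (K : ℝ) < δ := by rw [hKdef]; push_cast; exact hK'
  let X : (Fin n → ℝ) → ℕ → M := fun θ i => B (((i : ℝ) / K) • θ)
  have hX : ∀ i : ℕ, Continuous fun θ => X θ i := fun i => hB.comp (continuous_const_smul _)
  have hdist : ∀ θ ∈ cube n, ∀ i < K, dist (X θ i) (X θ (i + 1)) < ρ / 2 := by
    intro θ hθ i hi
    have hi' : (i : ℝ) + 1 ≤ K := by exact_mod_cast hi
    refine hd (θ, (i : ℝ) / K) ⟨hθ, by positivity, (div_le_one hK0).2 (by linarith)⟩
      (θ, ((i + 1 : ℕ) : ℝ) / K) ⟨hθ, by positivity, (div_le_one hK0).2 (by push_cast; exact hi')⟩ ?_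
    rw [Prod.dist_eq, dist_self, max_eq_right dist_nonneg, Real.dist_eq, ← sub_div, abs_div,
      abs_of_pos hK0]
    push_cast
    rw [show (i : ℝ) - (i + 1) = -1 by ring, abs_neg, abs_one]
    exact hK1
  have hpos : ∀ i < K, (0 : ℝ) < (fun _ : ℕ => ρ / 2) i := fun i _ => by positivity
  have hlip : ∀ θ ∈ cube n, PS.Lip (pg (X θ) (fun _ => ρ / 2) K) := by
    intro θ hθ u v
    have := dist_pg_le (x := X θ) (Δ := fun _ => ρ / 2) (n := K) (ρ := ρ) (L := 1) hU zero_le_one hpos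
      (fun i hi => (hdist θ hθ i hi).trans (by linarith))
      (fun i hi => by rw [one_mul]; exact (hdist θ hθ i hi).le) u v
    rwa [one_mul] at this
  have hx0 : ∀ θ, X θ 0 = x₁ := by
    intro θ
    have h0 : (0 : Fin n → ℝ) ∈ bdc n :=
      ⟨fun i => ⟨le_rfl, zero_le_one⟩, ⟨0, hn⟩, Or.inl rfl⟩
    show B ((((0 : ℕ) : ℝ) / K) • θ) = x₁
    rw [Nat.cast_zero, zero_div, zero_smul]
    exact hbd 0 h0
  have hxK : ∀ θ, X θ K = B θ := by
    intro θ
    show B ((((K : ℕ) : ℝ) / K) • θ) = B θ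
    rw [div_self hK0.ne', one_smul]
  have hcs : cs (fun _ => ρ / 2) K = K * (ρ / 2) := cs_const _ _
  have hmem : ∀ θ ∈ cube n, PS.mo (pg (X θ) (fun _ => ρ / 2) K) ∈ PS.P x₁ (B θ) (K * (ρ / 2)) := by
    intro θ hθ
    refine PS.mo_mem (hlip θ hθ) (fun u hu => ?_) fun u hu => ?_
    · rw [pg_of_nonpos hpos hu, hx0]
    · rw [pg_of_ge hpos (by rw [hcs]; exact hu), hxK]
  refine ⟨K * (ρ / 2), by positivity, fun θ => PS.mo (pg (X θ) (fun _ => ρ / 2) K), ?_, hmem⟩
  refine PS.continuousOn_of_eval (t := K * (ρ / 2)) (by positivity)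
    (fun θ hθ => PS.P_subset_PP (hmem θ hθ)) fun u => ?_
  refine ContinuousOn.congr (f := fun θ => pg (X θ) (fun _ => ρ / 2) K u) ?_
    fun θ hθ => (hlip θ hθ).mo_apply u
  exact continuousOn_pg (ρ := ρ) (U := fun _ => u) (D := fun _ _ => ρ / 2) hU
    (fun i _ => (hX i).continuousOn) (fun i _ => continuousOn_const) continuousOn_const
    (fun θ _ i hi => hpos i hi) fun θ hθ i hi => (hdist θ hθ i hi).trans (by linarith)

end Vale.Agent.P216.Tau
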